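import Vale.Agent.P110.Products

/-!
P110: Littlewood polynomials in product form with a bounded factor are not ultraflat.
-/

theorem Vale.Agent.Results.P110.NoFlatProduct.result :
    ∀ m : ℕ, 2 ≤ m → ∃ c : ℝ, 0 < c ∧ ∀ (k r : ℕ) (a q b : ℕ → ℝ), 0 < k → 0 < r →
      (∀ i < k, a i ^ 2 = 1) → (∀ i < m, q i ^ 2 = 1) → (∀ i < r, b i ^ 2 = 1) →
      ∃ z : ℂ, ‖z‖ = 1 ∧
        c * Real.sqrt (k * m * r) < |‖(∑ i ∈ Finset.range k, (a i : ℂ) * z ^ i) *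
          (∑ j ∈ Finset.range m, (q j : ℂ) * z ^ (k * j)) *
          (∑ l ∈ Finset.range r, (b l : ℂ) * z ^ (k * m * l))‖ - Real.sqrt (k * m * r)| :=
  Vale.Agent.P110.no_flat_product
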