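import Vale.Agent.P110.Spread.Spread

/-!
P110: a Littlewood polynomial bounded by a multiple of the root of its length has no spectral gap
on any window, and the frequencies of an ultraflat sequence of Littlewood polynomials visit every
window on every arc.
-/

open MeasureTheory Filter

theorem Vale.Agent.Results.P110.SpreadFrequencies.result :
    (∀ C x y a b : ℝ, x < y → 0 ≤ a → a < b → b ≤ 1 →
      ∃ c : ℝ, 0 < c ∧ ∃ N₀ : ℕ, ∀ N : ℕ, N₀ ≤ N → ∀ ε : ℕ → ℤ,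
        (∀ k < N, ε k = 1 ∨ ε k = -1) →
        (∀ z : ℂ, ‖z‖ = 1 → ‖∑ k ∈ Finset.range N, (ε k : ℂ) * z ^ k‖ ≤ C * √(N : ℝ)) →
        c * N ≤ ∫ t in x..y, ‖∑ k ∈ (Finset.range N).filter
          (fun k : ℕ => a * N ≤ (k : ℝ) ∧ (k : ℝ) < b * N),
            (ε k : ℂ) * Complex.exp (t * Complex.I) ^ k‖ ^ 2) ∧
    (∀ (N : ℕ → ℕ) (ε : ℕ → ℕ → ℤ), Tendsto N atTop atTop →
      (∀ n, ∀ k < N n, ε n k = 1 ∨ ε n k = -1) →
      (∀ η : ℝ, 0 < η → ∀ᶠ n in atTop, ∀ z : ℂ, ‖z‖ = 1 →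
        |‖∑ k ∈ Finset.range (N n), (ε n k : ℂ) * z ^ k‖ / √(N n : ℝ) - 1| ≤ η) →
      ∀ x y a b : ℝ, x < y → 0 ≤ a → a < b → b ≤ 1 →
        ∃ c : ℝ, 0 < c ∧ ∀ᶠ n in atTop, ENNReal.ofReal c ≤ volume {t ∈ Set.Icc x y |
          ((∑ k ∈ Finset.range (N n),
              (k : ℂ) * (ε n k : ℂ) * Complex.exp (t * Complex.I) ^ k) /
            ∑ k ∈ Finset.range (N n), (ε n k : ℂ) * Complex.exp (t * Complex.I) ^ k).re / N n ∈
              Set.Ioo a b}) :=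
  ⟨fun C x y a b hxy ha hab hb => Agent.P110.Spread.window_energy C x y a b hxy ha hab hb,
    fun N ε hN hε hflat _ _ _ _ hxy ha hab hb =>
      Agent.P110.Spread.frequency_spread N ε hN hε hflat hxy ha hab hb⟩
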